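import Crest.Agent.N265.Jac.Irr
import Crest.Agent.R188.Noe3
import Crest.Agent.N265.Sp.Basic

-- ▼ part N265/Jac/Fib
section

/-!
# Row 265 (helper83): fibre inequality, regularity, Hartogs, dimension of images
-/

set_option autoImplicit false
noncomputable section
open MvPolynomial

namespace Crest.Agent.N265.Jac

section generic

variable {A : Type*} [CommRing A]

theorem hq_self (m : Ideal A) [m.IsPrime] : hq m m = 0 := by
  refine le_antisymm ((hq_le_iff le_rfl).2 fun s h1 h2 => ?_) zero_le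
  by_contra hc
  have hpos : 0 < s.length := Nat.pos_of_ne_zero fun e => hc (by simp [e])
  have hlt : s.head < s.last := s.strictMono (Fin.lt_def.2 hpos)
  exact lt_irrefl _ (lt_of_lt_of_le hlt (le_trans (α := Ideal A) h2 h1))

/-- **fibre inequality** -/
theorem hq_le_fibre {S : Type*} [CommRing S] (φ : A →+* S) {J : Ideal A} {J' m' : Ideal S}
    [m'.IsPrime] [IsNoetherianRing (A ⧸ J)] [IsNoetherianRing (S ⧸ J')] (h : J ≤ J'.comap φ)
    (hJ' : J' ≤ m') :
    hq J' m' ≤ hq J (m'.comap φ) + hq (J' ⊔ (m'.comap φ).map φ) m' := by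
  let ψ : A ⧸ J →+* S ⧸ J' := Ideal.quotientMap J' φ h
  let : Algebra (A ⧸ J) (S ⧸ J') := ψ.toAlgebra
  have hm : J ≤ m'.comap φ := h.trans (Ideal.comap_mono hJ')
  have h1 : ((m'.comap φ).map (Ideal.Quotient.mk J)).IsPrime :=
    Ideal.isPrime_map_quotientMk_of_isPrime hm
  have h2 : (m'.map (Ideal.Quotient.mk J')).IsPrime := Ideal.isPrime_map_quotientMk_of_isPrime hJ'
  have h3 : (m'.map (Ideal.Quotient.mk J')).LiesOver ((m'.comap φ).map (Ideal.Quotient.mk J)) := by
    refine ⟨Ideal.ext fun a => ?_⟩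
    obtain ⟨a, rfl⟩ := Ideal.Quotient.mk_surjective a
    rw [Ideal.mem_quotient_iff_mem hm, Ideal.mem_comap, Ideal.under_def, Ideal.mem_comap]
    change _ ↔ Ideal.Quotient.mk J' (φ a) ∈ _
    rw [Ideal.mem_quotient_iff_mem hJ']
  have h4 := Ideal.height_le_height_add_of_liesOver ((m'.comap φ).map (Ideal.Quotient.mk J))
    (m'.map (Ideal.Quotient.mk J'))
  have h5 : (J' ⊔ (m'.comap φ).map φ).map (Ideal.Quotient.mk J')
      = ((m'.comap φ).map (Ideal.Quotient.mk J)).map (algebraMap (A ⧸ J) (S ⧸ J')) := by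
    rw [Ideal.map_sup, Ideal.map_quotient_self, bot_sup_eq, Ideal.map_map, Ideal.map_map]
    rfl
  rw [← hq_map J' (le_sup_left : J' ≤ J' ⊔ _), h5]
  exact h4

theorem isRegular_of_gen {J m : Ideal A} [m.IsPrime] [IsNoetherianRing (A ⧸ J)] {n : ℕ}
    (z : Fin n → A) (hz : ∀ i, z i ∈ m) (hgen : m ≤ Ideal.span (Set.range z) ⊔ J ⊔ m ^ 2)
    (hn : (n : ℕ∞) ≤ hq J m) [(m.map (Ideal.Quotient.mk J)).IsPrime] :
    IsRegularLocalRing (Localization.AtPrime (m.map (Ideal.Quotient.mk J))) := by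
  let B := Localization.AtPrime (m.map (Ideal.Quotient.mk J))
  let ψ : A →+* B := (algebraMap (A ⧸ J) B).comp (Ideal.Quotient.mk J)
  have hmax : m.map ψ = IsLocalRing.maximalIdeal B := by
    rw [← Ideal.map_map]; exact Localization.AtPrime.map_eq_maximalIdeal
  have hspan : Ideal.span (Set.range fun i => ψ (z i)) = IsLocalRing.maximalIdeal B := by
    refine le_antisymm ?_ ?_
    · rw [Ideal.span_le, ← hmax]
      rintro _ ⟨i, rfl⟩
      exact Ideal.mem_map_of_mem _ (hz i)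
    · refine Submodule.le_of_le_smul_of_le_jacobson_bot
        (IsLocalRing.maximalIdeal B).fg_of_isNoetherianRing
        (IsLocalRing.maximalIdeal_le_jacobson _) ?_
      have h0 : J.map ψ = ⊥ := by rw [← Ideal.map_map, Ideal.map_quotient_self, Ideal.map_bot]
      have := Ideal.map_mono (f := ψ) hgen
      rw [Ideal.map_sup, Ideal.map_sup, h0, sup_bot_eq, Ideal.map_pow, hmax, Ideal.map_span,
        ← Set.range_comp, pow_two] at this
      exact this
  have hdim : ringKrullDim B = hq J m :=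
    IsLocalization.AtPrime.ringKrullDim_eq_height (m.map (Ideal.Quotient.mk J)) B
  exact (R188.Str.isRegularLocalRing_of_span _ hspan (by rw [hdim]; exact_mod_cast hn)).1

theorem krull_quot_le_hq {B : Type*} [CommRing B] [IsLocalRing B] {m : Ideal A} [m.IsPrime]
    (ψ : A →+* B) (hinj : Function.Injective (PrimeSpectrum.comap ψ))
    (hψm : ∀ a, ψ a ∈ IsLocalRing.maximalIdeal B → a ∈ m) (P : Ideal B) [hP : P.IsPrime] :
    ringKrullDim (B ⧸ P) ≤ hq (P.comap ψ) m := by
  have hpm : P.comap ψ ≤ m := fun a ha => hψm a (IsLocalRing.le_maximalIdeal hP.ne_top ha)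
  refine iSup_le fun s => ?_
  have hsm : StrictMono (PrimeSpectrum.comap ψ ∘ PrimeSpectrum.comap (Ideal.Quotient.mk P)) :=
    Monotone.strictMono_of_injective (fun p q h => Ideal.comap_mono (Ideal.comap_mono h))
      (hinj.comp (PrimeSpectrum.comap_injective_of_surjective _ Ideal.Quotient.mk_surjective))
  have := (hq_le_iff hpm).1 le_rfl (s.map _ hsm) ?_ ?_
  · exact_mod_cast this
  · intro a ha
    rw [LTSeries.head_map]
    change Ideal.Quotient.mk P (ψ a) ∈ s.head.asIdeal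
    rw [Ideal.Quotient.eq_zero_iff_mem.2 (Ideal.mem_comap.1 ha)]
    exact zero_mem _
  · intro a ha
    rw [LTSeries.last_map] at ha
    refine hψm a (IsLocalRing.le_maximalIdeal
      (J := s.last.asIdeal.comap (Ideal.Quotient.mk P)) ?_ ha)
    exact (Ideal.comap_isPrime _ _).ne_top

theorem exists_assoc_of_not_dvd {B : Type*} [CommRing B] [IsRegularLocalRing B] {d : ℕ}
    (hdim : ringKrullDim B = (d + 1 : ℕ)) {f g : B} (hgm : g ∈ IsLocalRing.maximalIdeal B)
    (hg0 : g ≠ 0) (hf : ¬ g ∣ f) :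
    ∃ P : Ideal B, P.IsPrime ∧ (∀ r, g ∣ r * f → r ∈ P) ∧ (d : WithBot ℕ∞) ≤ ringKrullDim (B ⧸ P) := by
  have hdom : IsDomain B := R188.Str.isDomain_of_isRegularLocalRing B
  have hdep : R188.Noe.Dep B d (QuotSMulTop g B) :=
    (R188.Noe.CM.of_regular B hdim).dep.quot hgm (IsSMulRegular.of_ne_zero hg0)
  have hf0 : (Submodule.Quotient.mk f : QuotSMulTop g B) ≠ 0 := by
    intro h
    rw [Submodule.Quotient.mk_eq_zero, Submodule.mem_smul_pointwise_iff_exists] at h
    obtain ⟨b, -, hb⟩ := h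
    exact hf ⟨b, hb.symm⟩
  obtain ⟨P, hP, hle⟩ := exists_le_isAssociatedPrime_of_isNoetherianRing B _ hf0
  refine ⟨P, hP.isPrime, fun r ⟨a, ha⟩ => hle ?_, R188.Noe.Dep.le_ringKrullDim (P := P) hP hdep⟩
  rw [Submodule.mem_colon_singleton, Submodule.mem_bot, ← Submodule.Quotient.mk_smul,
    Submodule.Quotient.mk_eq_zero, Submodule.mem_smul_pointwise_iff_exists]
  exact ⟨a, trivial, ha.symm⟩

/-- in a regular local ring the poles of a fraction have codimension one -/
theorem exists_prime_of_not_dvd {J m : Ideal A} [hm : m.IsPrime] (hJ : J ≤ m)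
    [(m.map (Ideal.Quotient.mk J)).IsPrime]
    [IsRegularLocalRing (Localization.AtPrime (m.map (Ideal.Quotient.mk J)))] {n : ℕ}
    (hn : hq J m = n) {f g : A} (hg : ∀ r, r ∉ m → r * g ∉ J)
    (hf : ¬ ∃ r a, r ∉ m ∧ r * f - a * g ∈ J) :
    ∃ p : Ideal A, p.IsPrime ∧ p ≤ m ∧ (∀ r a, r * f - a * g ∈ J → r ∈ p) ∧
      (n : ℕ∞) ≤ hq p m + 1 := by
  cases n with
  | zero => exact ⟨m, hm, le_rfl, fun r a h => by_contra fun hr => hf ⟨r, a, hr, h⟩, by simp⟩
  | succ d =>
  let B := Localization.AtPrime (m.map (Ideal.Quotient.mk J))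
  let ψ : A →+* B := (algebraMap (A ⧸ J) B).comp (Ideal.Quotient.mk J)
  have hmem : ∀ r, Ideal.Quotient.mk J r ∈ m.map (Ideal.Quotient.mk J) ↔ r ∈ m := fun r =>
    Ideal.mem_quotient_iff_mem hJ
  have hψ0 : ∀ a, ψ a = 0 ↔ ∃ r, r ∉ m ∧ r * a ∈ J := by
    intro a
    change algebraMap (A ⧸ J) B (Ideal.Quotient.mk J a) = 0 ↔ _
    rw [IsLocalization.map_eq_zero_iff (m.map (Ideal.Quotient.mk J)).primeCompl]
    constructor
    · rintro ⟨⟨r, hr⟩, h⟩
      obtain ⟨r, rfl⟩ := Ideal.Quotient.mk_surjective r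
      exact ⟨r, fun h' => hr ((hmem r).2 h'), Ideal.Quotient.eq_zero_iff_mem.1 h⟩
    · rintro ⟨r, hr, h⟩
      exact ⟨⟨Ideal.Quotient.mk J r, fun h' => hr ((hmem r).1 h')⟩,
        Ideal.Quotient.eq_zero_iff_mem.2 h⟩
  have hψm : ∀ a, ψ a ∈ IsLocalRing.maximalIdeal B ↔ a ∈ m := fun a =>
    (IsLocalization.AtPrime.to_map_mem_maximal_iff B (m.map (Ideal.Quotient.mk J)) _).trans (hmem a)
  have hgm : g ∈ m := by_contra fun h => hf ⟨g, f, h, by rw [mul_comm, sub_self]; exact zero_mem _⟩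
  have hg0 : ψ g ≠ 0 := fun h => let ⟨r, hr, h'⟩ := (hψ0 g).1 h; hg r hr h'
  have hdim : ringKrullDim B = (d + 1 : ℕ) := by
    rw [IsLocalization.AtPrime.ringKrullDim_eq_height (m.map (Ideal.Quotient.mk J)) B]
    exact congrArg _ hn
  have hf0 : ¬ ψ g ∣ ψ f := by
    rintro ⟨b, hb⟩
    obtain ⟨⟨a, ⟨s, hs⟩⟩, hab⟩ := IsLocalization.surj (m.map (Ideal.Quotient.mk J)).primeCompl b
    obtain ⟨a, rfl⟩ := Ideal.Quotient.mk_surjective a
    obtain ⟨s, rfl⟩ := Ideal.Quotient.mk_surjective s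
    have h1 : ψ (s * f - a * g) = 0 := by
      change b * ψ s = ψ a at hab
      rw [map_sub, map_mul, map_mul, hb, ← hab]
      ring
    obtain ⟨t, ht, h2⟩ := (hψ0 _).1 h1
    refine hf ⟨t * s, t * a, fun h' => (hm.mem_or_mem h').elim ht fun h'' => hs ((hmem s).2 h''), ?_⟩
    convert h2 using 1
    ring
  obtain ⟨P, hP, hle, hd⟩ := exists_assoc_of_not_dvd hdim ((hψm g).2 hgm) hg0 hf0
  have hinj : Function.Injective (PrimeSpectrum.comap ψ) := by
    rw [PrimeSpectrum.comap_comp]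
    exact (PrimeSpectrum.comap_injective_of_surjective _ Ideal.Quotient.mk_surjective).comp
      (PrimeSpectrum.localization_comap_injective B (m.map (Ideal.Quotient.mk J)).primeCompl)
  refine ⟨P.comap ψ, Ideal.comap_isPrime _ _,
    fun a ha => (hψm a).1 (IsLocalRing.le_maximalIdeal hP.ne_top ha), fun r a h => hle _ ⟨ψ a, ?_⟩, ?_⟩
  · have h1 : ψ (r * f - a * g) = 0 := (hψ0 _).2 ⟨1, (hm.ne_top <| (Ideal.eq_top_iff_one _).2 ·),
      by rwa [one_mul]⟩
    rw [map_sub, map_mul, map_mul, sub_eq_zero] at h1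
    rw [h1, mul_comm]
  · have h2 : (d : ℕ∞) ≤ hq (P.comap ψ) m := by
      exact_mod_cast hd.trans (krull_quot_le_hq ψ hinj (fun a => (hψm a).1) P)
    push_cast
    gcongr

theorem transcendental_of_scaling {B : Type*} [CommRing B] [IsDomain B] [Algebra ℂ B] [Algebra A B]
    (hinj : Function.Injective (algebraMap A B)) {x : B} (hx : x ≠ 0)
    (h : ∀ c : ℂ, c ≠ 0 → ∃ σ : B →+* B, (∀ a, σ (algebraMap A B a) = algebraMap A B a) ∧
      σ x = algebraMap ℂ B c * x) : Transcendental A x := by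
  rintro ⟨F, hF0, hF⟩
  refine hF0 (Polynomial.map_injective _ hinj ?_)
  rw [Polynomial.map_zero]
  refine Polynomial.eq_zero_of_infinite_isRoot _ (Set.infinite_of_injective_forall_mem
    (f := fun n : ℕ => algebraMap ℂ B ((n : ℂ) + 1) * x) ?_ fun n => ?_)
  · intro m n h
    have := (algebraMap ℂ B).injective (mul_right_cancel₀ hx h)
    exact_mod_cast add_right_cancel this
  · obtain ⟨σ, h1, h2⟩ := h ((n : ℂ) + 1) (by exact_mod_cast Nat.succ_ne_zero n)
    have h3 := congrArg σ hF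
    rw [Polynomial.aeval_def, Polynomial.hom_eval₂, map_zero, h2,
      (RingHom.ext h1 : σ.comp (algebraMap A B) = algebraMap A B)] at h3
    rw [Set.mem_ofPred_eq, Polynomial.IsRoot, Polynomial.eval_map]
    exact h3

end generic

/-! ### `kill` and `restr` -/

theorem kill_X_mem {B : Finset ℕ} {v : Var} (h : v.1 ∈ B) : kill B (X v) = X v := by simp [kill, h]
theorem kill_X_notMem {B : Finset ℕ} {v : Var} (h : v.1 ∉ B) : kill B (X v) = 0 := by simp [kill, h]
theorem kill_C (B : Finset ℕ) (c : ℂ) : kill B (C c) = C c := by simp [kill]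

theorem kill_kill {B B' : Finset ℕ} (h : B ⊆ B') (r : R) : kill B' (kill B r) = kill B r := by
  induction r using MvPolynomial.induction_on with
  | C c => simp
  | add p q hp hq => simp [hp, hq]
  | mul_X p v hp =>
    by_cases hv : v.1 ∈ B
    · rw [map_mul, map_mul, hp, kill_X_mem hv, kill_X_mem (h hv)]
    · rw [map_mul, kill_X_notMem hv, mul_zero, map_zero]

theorem comap_kill_mx (B : Finset ℕ) (y : Pt) :
    (mx y).comap (kill B : R →+* R) = mx (restr B y) :=
  Ideal.ext fun r => by rw [Ideal.mem_comap, mem_mx, mem_mx, ← eval_kill]; rfl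

theorem dAt_kill (B : Finset ℕ) (y ξ : Pt) (r : R) :
    dAt y ξ (kill B r) = dAt (restr B y) (restr B ξ) r := by
  induction r using MvPolynomial.induction_on with
  | C c => simp
  | add p q hp hq => rw [map_add, dAt_add, dAt_add, hp, hq]
  | mul_X p v hp =>
    rw [map_mul, dAt_mul, dAt_mul, hp, eval_kill, eval_kill, dAt_X]
    by_cases hv : v.1 ∈ B
    · rw [kill_X_mem hv, dAt_X]; simp [restr, hv]
    · rw [kill_X_notMem hv, dAt_zero]; simp [restr, hv]

theorem sub_kill_mem (X : Spc) (r : R) : r - kill X.B r ∈ X.I := fun x hx => by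
  rw [map_sub, eval_kill, X.restr_eq hx, sub_self]

theorem mem_comap_kill {J : Ideal R} {B : Finset ℕ} {r : R} :
    r ∈ J.comap (kill B : R →+* R) ↔ kill B r ∈ J := Ideal.mem_comap

theorem FinJ.comap_kill {J : Ideal R} (h : FinJ J) (B : Finset ℕ) :
    FinJ (J.comap (kill B : R →+* R)) := by
  obtain ⟨V, hV⟩ := h
  refine ⟨V, fun v hv => ?_⟩
  rw [mem_comap_kill]
  by_cases hb : v.1 ∈ B
  · rw [kill_X_mem hb]; exact hV v hv
  · rw [kill_X_notMem hb]; exact zero_mem _

theorem StabI.comap_kill {J : Ideal R} (h : StabI J) (B : Finset ℕ) :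
    StabI (J.comap (kill B : R →+* R)) := fun r hr => by
  rw [mem_comap_kill] at hr ⊢
  rw [← gam_kill]
  exact h _ hr



/-- `restr` as a linear map -/
def restrL (B : Finset ℕ) : Pt →ₗ[ℂ] Pt where
  toFun := restr B
  map_add' a b := by funext v; by_cases h : v.1 ∈ B <;> simp [restr, h]
  map_smul' c a := by funext v; by_cases h : v.1 ∈ B <;> simp [restr, h]


theorem rel_restr_of {B B' : Finset ℕ} (h : B' ⊆ B) {x : Pt} (hx : Rel B x) : Rel B' (restr B' x) :=
  fun b hb => let ⟨v, hv, h'⟩ := hx b (h hb); ⟨v, hv, by simpa [restr, hv, hb] using h'⟩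

/-- freeze the variables outside the blocks `B` at the values of `z` -/
def frz (B : Finset ℕ) (z : Pt) : R →ₐ[ℂ] R := aeval fun v => if v.1 ∈ B then X v else C (z v)

theorem eval_frz (B : Finset ℕ) (z x : Pt) (r : R) :
    eval x (frz B z r) = eval (fun v => if v.1 ∈ B then x v else z v) r := by
  induction r using MvPolynomial.induction_on with
  | C c => simp [frz]
  | add p q hp hq => rw [map_add, map_add, map_add, hp, hq]
  | mul_X p v hp =>
    rw [map_mul, map_mul, map_mul, hp, eval_X]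
    by_cases hv : v.1 ∈ B <;> simp [frz, hv]

theorem dAt_frz (B : Finset ℕ) (z ξ : Pt) (r : R) :
    dAt (restr B z) ξ (frz B z r) = dAt z (restr B ξ) r := by
  have h0 : (fun v => if v.1 ∈ B then restr B z v else z v) = z := by
    funext v; by_cases hv : v.1 ∈ B <;> simp [restr, hv]
  induction r using MvPolynomial.induction_on with
  | C c => simp [frz]
  | add p q hp hq => rw [map_add, dAt_add, dAt_add, hp, hq]
  | mul_X p v hp =>
    rw [map_mul, dAt_mul, dAt_mul, hp, eval_frz, eval_frz, h0, dAt_X]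
    by_cases hv : v.1 ∈ B <;> simp [frz, restr, hv]

/-! ### dimension of images -/

theorem scal_kill {B : Finset ℕ} {w : Var → ℂ} (h : ∀ v : Var, v.1 ∈ B → w v = 1) (r : R) :
    scal w (kill B r) = kill B r := by
  induction r using MvPolynomial.induction_on with
  | C c => simp
  | add p q hp hq => simp [hp, hq]
  | mul_X p v hp =>
    by_cases hv : v.1 ∈ B
    · rw [map_mul, map_mul, hp, kill_X_mem hv, scal_X, h v hv, map_one, one_mul]
    · rw [map_mul, kill_X_notMem hv, mul_zero, map_zero]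

theorem vdeg_some (v : Var) (b : ℕ) : vdeg v (some b) = if v.1 = b then 1 else 0 := by
  simp [vdeg, eB, eT, Finsupp.single_apply]

/-- forgetting a block in which `P` is relevant lowers the dimension -/
theorem pdim_comap_succ_le {P : Ideal R} (hP : P.IsPrime) (hfin : FinJ P) (hs : StabI P)
    {B : Finset ℕ} {v : Var} (hv : v.1 ∉ B) (hvP : (X v : R) ∉ P) :
    pdim (P.comap (kill B : R →+* R)) + 1 ≤ pdim P := by
  set P₀ := P.comap (kill B : R →+* R) with hP₀
  have hP₀p : P₀.IsPrime := Ideal.comap_isPrime _ _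
  let ψ : (R ⧸ P₀) →ₐ[ℂ] (R ⧸ P) := Ideal.quotientMapₐ P (kill B) le_rfl
  let : Algebra (R ⧸ P₀) (R ⧸ P) := ψ.toRingHom.toAlgebra
  have : IsScalarTower ℂ (R ⧸ P₀) (R ⧸ P) :=
    IsScalarTower.of_algebraMap_eq fun a => (ψ.commutes a).symm
  have hinj : Function.Injective (algebraMap (R ⧸ P₀) (R ⧸ P)) :=
    Ideal.quotientMap_injective (I := P) (f := (kill B : R →+* R))
  have : FaithfulSMul (R ⧸ P₀) (R ⧸ P) := (faithfulSMul_iff_algebraMap_injective _ _).2 hinj
  have : FaithfulSMul ℂ (R ⧸ P₀) :=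
    (faithfulSMul_iff_algebraMap_injective _ _).2 (algebraMap ℂ (R ⧸ P₀)).injective
  have halg : ∀ a : R, algebraMap (R ⧸ P₀) (R ⧸ P) (Ideal.Quotient.mk P₀ a)
      = Ideal.Quotient.mk P (kill B a) := fun a =>
    Ideal.quotientMap_mk (J := P₀) (I := P) (f := (kill B : R →+* R)) (H := le_rfl)
  have htr : Transcendental (R ⧸ P₀) (Ideal.Quotient.mk P (X v)) := by
    refine transcendental_of_scaling hinj (fun h => hvP (Ideal.Quotient.eq_zero_iff_mem.1 h))
      fun c hc => ?_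
    have hle : P ≤ P.comap (scal fun w => c ^ (vdeg w (some v.1)) : R →+* R) :=
      fun r hr => Ideal.mem_comap.2 (stab_torus hs (isChar_zpow hc (some v.1)) hr)
    refine ⟨Ideal.quotientMap P _ hle, fun a => ?_, ?_⟩
    · obtain ⟨a, rfl⟩ := Ideal.Quotient.mk_surjective a
      rw [halg, Ideal.quotientMap_mk, RingHom.coe_coe, scal_kill]
      intro w hw
      rw [vdeg_some, if_neg (fun e : w.1 = v.1 => hv (e ▸ hw)), zpow_zero]
    · rw [Ideal.quotientMap_mk, RingHom.coe_coe, scal_X, vdeg_some, if_pos rfl, zpow_one, map_mul,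
        ← Ideal.Quotient.mk_algebraMap, algebraMap_eq]
  have : Algebra.Transcendental (R ⧸ P₀) (R ⧸ P) := ⟨⟨_, htr⟩⟩
  have h1 := trdeg_add_eq ℂ (R ⧸ P₀) (A := R ⧸ P)
  rw [trdeg_eq_pdim (hfin.comap_kill B) hP₀p, trdeg_eq_pdim hfin hP] at h1
  have h2 : (1 : Cardinal) ≤ Algebra.trdeg (R ⧸ P₀) (R ⧸ P) :=
    Cardinal.one_le_iff_pos.2 (trdeg_pos _ _)
  have h3 : (pdim P₀ : Cardinal) + 1 ≤ pdim P := h1 ▸ add_le_add_right h2 _
  exact_mod_cast h3

theorem pdim_comap_add_le {Q : Ideal R} (hQ : Q.IsPrime) (hfin : FinJ Q) (hs : StabI Q)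
    (B T : Finset ℕ) (hd : Disjoint B T) (hT : ∀ b ∈ T, ∃ v : Var, v.1 = b ∧ (X v : R) ∉ Q) :
    pdim (Q.comap (kill B : R →+* R)) + T.card ≤ pdim (Q.comap (kill (B ∪ T) : R →+* R)) := by
  induction T using Finset.induction_on with
  | empty => simp
  | insert b T hb ih =>
    obtain ⟨v, hv, hvQ⟩ := hT b (Finset.mem_insert_self _ _)
    have hbB : b ∉ B := fun h => Finset.disjoint_left.1 hd h (Finset.mem_insert_self _ _)
    have h1 := ih (hd.mono_right (Finset.subset_insert _ _))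
      fun c hc => hT c (Finset.mem_insert_of_mem hc)
    have h2 := pdim_comap_succ_le (P := Q.comap (kill (B ∪ insert b T) : R →+* R))
      (Ideal.comap_isPrime _ _) (hfin.comap_kill _) (hs.comap_kill _) (B := B ∪ T) (v := v)
      (by rw [hv]; simp [hb, hbB]) (by
        rwa [mem_comap_kill, kill_X_mem (by rw [hv]; simp)])
    have h3 : (Q.comap (kill (B ∪ insert b T) : R →+* R)).comap (kill (B ∪ T) : R →+* R)
        = Q.comap (kill (B ∪ T) : R →+* R) := Ideal.ext fun r => by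
      rw [mem_comap_kill, mem_comap_kill, mem_comap_kill, kill_kill (Finset.union_subset_union_right (Finset.subset_insert _ _))]
    rw [h3] at h2
    rw [Finset.card_insert_of_notMem hb]
    omega

/-- an irreducible closed subset of the image is dominated by an irreducible subspace -/
theorem exists_dominant {Y X Z : Spc} (hi : Z.Irred)
    (hs : ∀ x ∈ Z.pts, ∃ y ∈ Y.pts, restr X.B y = x) :
    ∃ W : Spc, W.Sub Y ∧ W.Irred ∧ W.I.comap (kill X.B : R →+* R) = Z.I := by
  have hst : StabI (Z.I.map (kill X.B : R →+* R)) := by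
    intro r hr
    have : Z.I.map (kill X.B : R →+* R) ≤ (Z.I.map (kill X.B : R →+* R)).comap gam := by
      rw [Ideal.map_le_iff_le_comap]
      intro a ha
      rw [mem_comap_kill, Ideal.mem_comap, gam_kill]
      exact Ideal.mem_map_of_mem _ (Spc.gam_mem_I ha)
    exact this hr
  obtain ⟨t, ht, hc⟩ := exists_components (subI Y _ hst)
  have h1 : t.inf (fun W => W.I.comap (kill X.B : R →+* R)) ≤ Z.I := by
    intro a ha x hx
    obtain ⟨y, hy, rfl⟩ := hs x hx
    obtain ⟨W, hW, hyW⟩ := hc y ⟨hy, by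
      rw [Ideal.map_le_iff_le_comap, comap_kill_mx]; exact I_le_mx hx⟩
    rw [← eval_kill]
    exact (Finset.inf_le (f := fun W : Spc => W.I.comap (kill X.B : R →+* R)) hW ha) y hyW
  obtain ⟨W, hW, h2⟩ := (Ideal.IsPrime.inf_le' hi).1 h1
  refine ⟨W, sub_trans (ht W hW).1 (subI_sub _ _ _), (ht W hW).2.1, le_antisymm h2 ?_⟩
  rw [← Ideal.map_le_iff_le_comap]
  exact (le_subI_I Y _ hst).trans (I_anti (ht W hW).1.2)

theorem pdim_add_le_of_dominant {W : Spc} (hW : W.Irred) {B : Finset ℕ} (hB : B ⊆ W.B) :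
    pdim (W.I.comap (kill B : R →+* R)) + (W.B \ B).card ≤ pdim W.I := by
  obtain ⟨y, hy⟩ := irred_nonempty hW
  have h1 := pdim_comap_add_le hW (finJ_I W) (stabI_I W) B (W.B \ B) Finset.disjoint_sdiff
    fun b hb => by
      obtain ⟨v, hv, h⟩ := W.rel y hy b (Finset.mem_sdiff.1 hb).1
      exact ⟨v, hv, fun h' => h (by simpa using h' y hy)⟩
  have h2 : W.I.comap (kill W.B : R →+* R) = W.I := Ideal.ext fun r => by
    rw [mem_comap_kill]
    have := sub_kill_mem W r
    exact ⟨fun h => by simpa using add_mem this h, fun h => by simpa using sub_mem h this⟩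
  rwa [Finset.union_sdiff_of_subset hB, h2] at h1

end Crest.Agent.N265.Jac
end
end

-- ▼ part N265/Sp/Dim

/-! # Task SP2: local dimension, Jacobian criterion, irreducibility, Hartogs
(use `Ideal.height_le_height_add_*`, R188/Noe2, Noe3: regular ⇒ CM domain, going down, Noether normalisation) -/

set_option autoImplicit false
noncomputable section
open MvPolynomial Module

namespace Crest.Agent.N265
variable {X Y Z W : Spc}

/-- local ring of `V(J)` at `x` has this dimension -/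
def ldimI (J : Ideal R) (x : Pt) : ℕ∞ := ((mx x).map (Ideal.Quotient.mk J)).height
lemma Spc.ldim_eq (X : Spc) (x : Pt) : X.ldim x = ldimI X.I x := rfl
lemma finite_TanI {J : Ideal R} (V : Finset Var) (hV : ∀ v ∉ V, (MvPolynomial.X v : R) ∈ J) (x : Pt) :
    Module.Finite ℂ (TanI J x) := Jac.FinJ.finite_tan ⟨V, hV⟩ x
instance (X : Spc) (x : Pt) : Module.Finite ℂ (X.Tan x) := by
  obtain ⟨V, -, hV⟩ := X.exists_V; exact finite_TanI V hV x
lemma TanI_anti {J J' : Ideal R} (h : J ≤ J') (x : Pt) : TanI J' x ≤ TanI J x :=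
  fun _ hξ r hr => hξ r (h hr)
/-- tangent spaces and dimensions only depend on the ideal near the point -/
lemma TanI_local {J J' : Ideal R} {x : Pt} (hJ : J ≤ mx x) {r : R} (hr : eval x r ≠ 0)
    (h : ∀ s ∈ J', r * s ∈ J) (h' : J ≤ J') : TanI J' x = TanI J x := by
  refine le_antisymm (TanI_anti h' x) (Jac.TanI_le_of_local (fun s hs => ?_) fun s hs => ⟨r, hr, h s hs⟩)
  exact ((Jac.mx_isPrime x).mem_or_mem (hJ (h s hs))).resolve_left hr
theorem Spc.ldim_le_tan {x : Pt} (hx : x ∈ X.pts) : X.ldim x ≤ finrank ℂ (X.Tan x) := Jac.ldim_le_tan hx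
/-- Krull: `n` equations cut the dimension by at most `n` -/
theorem Spc.ldim_le_add (hZ : Z.Sub W) {x : Pt} (hx : x ∈ Z.pts) {α : Type} [Fintype α] (f : α → R)
    {g : R} (hg : eval x g ≠ 0)
    (h : ∀ y ∈ W.pts, eval y g ≠ 0 → (y ∈ Z.pts ↔ ∀ i, eval y (f i) = 0)) :
    W.ldim x ≤ Z.ldim x + Fintype.card α := by
  refine Jac.ldim_le_add hZ hx (fun i => g * f ((Fintype.equivFin α).symm i)) (fun i y hy => ?_) hg
    fun y hy hgy hs => (h y hy hgy).2 fun i => ?_
  · rw [map_mul]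
    by_cases h0 : eval y g = 0
    · rw [h0, zero_mul]
    · rw [(h y (hZ.2 hy) h0).1 hy, mul_zero]
  · have := hs (Fintype.equivFin α i)
    rw [Equiv.symm_apply_apply, map_mul] at this
    exact (mul_eq_zero.1 this).resolve_left hgy
theorem Spc.ldim_mono (hZ : Z.Sub W) {x : Pt} (hx : x ∈ Z.pts) : Z.ldim x ≤ W.ldim x := Jac.ldim_mono hZ.2 hx
theorem Spc.ldim_local (hZ : Z.Sub W) {x : Pt} (hx : x ∈ Z.pts) {g : R} (hg : eval x g ≠ 0)
    (h : ∀ y ∈ W.pts, eval y g ≠ 0 → y ∈ Z.pts) : Z.ldim x = W.ldim x ∧ Z.Tan x = W.Tan x := by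
  have h1 : ∀ s ∈ Z.I, g * s ∈ W.I := fun s hs y hy => by
    rw [map_mul]
    by_cases h0 : eval y g = 0
    · rw [h0, zero_mul]
    · rw [hs y (h y hy h0), mul_zero]
  exact ⟨Jac.hq_eq_of_local (Jac.I_le_mx hx) hZ.I_le fun a ha => ⟨g, hg, 1, by
    rw [pow_one]; exact h1 a ha⟩, TanI_local (Jac.I_le_mx (hZ.2 hx)) hg h1 hZ.I_le⟩
/-- the local ring at a smooth point is regular -/
theorem Spc.SmAt.regular {x : Pt} (hx : x ∈ X.pts) (h : X.SmAt x)
    [((mx x).map (Ideal.Quotient.mk X.I)).IsPrime] :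
    IsRegularLocalRing (Localization.AtPrime ((mx x).map (Ideal.Quotient.mk X.I))) := by
  obtain ⟨z, hz, hg⟩ := Jac.exists_gen (Jac.finJ_I X) (Jac.I_le_mx hx)
  exact Jac.isRegular_of_gen z hz hg h
lemma Spc.isMaximal_mx {x : Pt} (hx : x ∈ X.pts) :
    ((mx x).map (Ideal.Quotient.mk X.I)).IsMaximal := by
  refine Ideal.IsMaximal.map_of_surjective_of_ker_le Ideal.Quotient.mk_surjective ?_
  rw [Ideal.mk_ker]
  exact Jac.I_le_mx hx
lemma Spc.Sm.smAt {n : ℕ} (h : X.Sm n) {x : Pt} (hx : x ∈ X.pts) : X.SmAt x := Jac.sm_smAt h hx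
lemma Spc.sm_of {n : ℕ} (h : ∀ x ∈ X.pts, finrank ℂ (X.Tan x) ≤ n ∧ (n : ℕ∞) ≤ X.ldim x) : X.Sm n :=
  Jac.sm_of_le (fun x hx => (h x hx).1) fun x hx => (h x hx).2
/-- near a smooth point the space is a domain -/
theorem Spc.SmAt.domain {x : Pt} (hx : x ∈ X.pts) (h : X.SmAt x) {a b : R} (hab : a * b ∈ X.I) :
    ∃ r : R, eval x r ≠ 0 ∧ (r * a ∈ X.I ∨ r * b ∈ X.I) := by
  rcases (Jac.smAt_locI_prime hx h).mem_or_mem (Jac.le_locI _ _ hab) with ⟨r, hr, h1⟩ | ⟨r, hr, h1⟩
  · exact ⟨r, hr, Or.inl h1⟩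
  · exact ⟨r, hr, Or.inr h1⟩
theorem Spc.irred_of_smooth (hc : X.Conn) (h : ∀ x ∈ X.pts, X.SmAt x) : X.Irred := 
  Jac.irred_of_smAt_conn hc h
/-- an irreducible space has the same dimension at all points -/
theorem Spc.Irred.ldim_eq (h : X.Irred) {x y : Pt} (hx : x ∈ X.pts) (hy : y ∈ X.pts) :
    X.ldim x = X.ldim y := (Jac.ldim_irred h hx).trans (Jac.ldim_irred h hy).symm
theorem Spc.Irred.ldim_lt (h : X.Irred) (hZ : Z.Sub X) (hne : Z.pts ≠ X.pts) {x : Pt}
    (hx : x ∈ Z.pts) : Z.ldim x + 1 ≤ X.ldim x := Jac.ldim_lt_of_sub h hZ hne hx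
/-- fibre inequality; the fibre of the cone map is given by the ideal `Y.I + 𝔪_x` -/
theorem Spc.ldim_le_fibre (p : Proj Y X) {y : Pt} (hy : y ∈ Y.pts) :
    Y.ldim y ≤ X.ldim (restr X.B y) +
      ldimI (Y.I ⊔ Ideal.span {r | ∃ v : Var, v.1 ∈ X.B ∧ r = MvPolynomial.X v - C (y v)}) y := by
  have h1 := Jac.hq_le_fibre (kill X.B : R →+* R) (J := X.I) (J' := Y.I) (m' := mx y)
    (fun r hr => Jac.mem_comap_kill.2 (p.kill_mem hr)) (Jac.I_le_mx hy)
  rw [Jac.comap_kill_mx] at h1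
  refine h1.trans (add_le_add_right (Jac.hq_anti ?_
    (sup_le_sup_left (Ideal.span_le.2 ?_) _)) _)
  · exact sup_le (Jac.I_le_mx hy) (by rw [Ideal.map_le_iff_le_comap, Jac.comap_kill_mx])
  · rintro _ ⟨v, hv, rfl⟩
    have h2 := Ideal.mem_map_of_mem (kill X.B : R →+* R) (Jac.X_sub_mem_mx (restr X.B y) v)
    rw [RingHom.coe_coe, map_sub, Jac.kill_X_mem hv, Jac.kill_C] at h2
    simpa [restr, hv] using h2
/-- if `y` is isolated in its fibre (up to scaling the new blocks) -/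
theorem Spc.ldim_le_of_isolated (p : Proj Y X) {y : Pt} (hy : y ∈ Y.pts) {g : R}
    (hg : eval y g ≠ 0) (h : ∀ z ∈ Y.pts, restr X.B z = restr X.B y → eval z g ≠ 0 →
      ∃ c : ℕ → ℂ, ∀ v, z v = c v.1 * y v) :
    Y.ldim y ≤ X.ldim (restr X.B y) + (Y.B \ X.B).card := by
  refine (Spc.ldim_le_fibre p hy).trans (add_le_add_right ?_ _)
  set J := Y.I ⊔ Ideal.span {r | ∃ v : Var, v.1 ∈ X.B ∧ r = MvPolynomial.X v - C (y v)} with hJ
  have hfin : Jac.FinJ J := (Jac.finJ_I Y).mono le_sup_left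
  have := hfin.noeth
  have hJm : J ≤ mx y := sup_le (Jac.I_le_mx hy)
    (Ideal.span_le.2 (by rintro _ ⟨v, -, rfl⟩; exact Jac.X_sub_mem_mx y v))
  choose! vb hvb hvb' using Y.rel y hy
  let e := (Y.B \ X.B).equivFin
  let s : Fin (Y.B \ X.B).card → R := fun i =>
    MvPolynomial.X (vb (e.symm i)) - C (y (vb (e.symm i)))
  have hs : ∀ i, s i ∈ mx y := fun i => Jac.X_sub_mem_mx y _
  refine (Jac.hq_le_sup_add hJm s hs).trans ?_
  have hle : J ⊔ Ideal.span (Set.range s) ≤ mx y := Jac.sup_span_le hJm hs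
  rw [← Jac.hq_eq_of_local le_rfl hle, Jac.hq_self, zero_add]
  intro a ha
  obtain ⟨ρ, hρ, hρ'⟩ := Jac.exists_rel_fun (Y.rel y hy)
  obtain ⟨k, hk⟩ := Jac.nss (hfin.mono (le_sup_left : J ≤ J ⊔ Ideal.span (Set.range s)))
    (a := ρ * g * a) fun z hz => by
    rw [map_mul, map_mul]
    by_cases h1 : eval z ρ = 0
    · rw [h1, zero_mul, zero_mul]
    by_cases h2 : eval z g = 0
    · rw [h2, mul_zero, zero_mul]
    have hzY : z ∈ Y.pts := Jac.mem_pts_of_le (hρ' z h1) (le_sup_left.trans (le_sup_left.trans hz))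
    have h3 : ∀ v : Var, v.1 ∈ X.B → z v = y v := fun v hv => by
      have := hz (Ideal.mem_sup_left (Ideal.mem_sup_right (Ideal.subset_span ⟨v, hv, rfl⟩)))
      simpa [mem_mx, sub_eq_zero] using this
    obtain ⟨c, hc⟩ := h z hzY (funext fun v => by
      by_cases hv : v.1 ∈ X.B <;> simp [restr, hv, h3]) h2
    have h4 : z = y := funext fun v => by
      by_cases hv : v.1 ∈ X.B
      · exact h3 v hv
      by_cases hv' : v.1 ∈ Y.B
      · have h5 := hz (Ideal.mem_sup_right (Ideal.subset_span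
          (Set.mem_range_self (e ⟨v.1, Finset.mem_sdiff.2 ⟨hv', hv⟩⟩))))
        simp only [s, Equiv.symm_apply_apply, mem_mx, map_sub, eval_X, eval_C, sub_eq_zero] at h5
        rw [hc, hvb _ hv'] at h5
        rw [hc, (mul_eq_right₀ (hvb' _ hv')).1 h5, one_mul]
      · rw [← Y.restr_eq hzY, ← Y.restr_eq hy]
        simp [restr, hv']
    rw [h4, mem_mx.1 ha, mul_zero]
  refine ⟨(ρ * g) ^ k, ?_, k, by rwa [← mul_pow]⟩
  rw [mem_mx, map_pow, map_mul]
  exact pow_ne_zero _ (mul_ne_zero hρ hg)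
/-- lower bound from a polynomial parametrisation with injective differential -/
theorem Spc.le_ldim_of_param {σ : Type} [Fintype σ] (F : Var → MvPolynomial σ ℂ) {x : Pt}
    (h0 : ∀ v, eval 0 (F v) = x v) (hF : ∀ r ∈ X.I, aeval F r = 0)
    (hd : ∀ i : σ, ∃ r : R, eval x r = 0 ∧ aeval F r - MvPolynomial.X i ∈
      (RingHom.ker (eval (0 : σ → ℂ))) ^ 2) : (Fintype.card σ : ℕ∞) ≤ X.ldim x := by
  let m : Ideal (MvPolynomial σ ℂ) := RingHom.ker (eval (0 : σ → ℂ))
  have hmax : m.IsMaximal := RingHom.ker_isMaximal_of_surjective _ fun c => ⟨C c, eval_C c⟩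
  have hev : ∀ r : R, eval 0 (aeval F r) = eval x r := fun r => by
    induction r using MvPolynomial.induction_on with
    | C c => simp
    | add p q hp hq => rw [map_add, map_add, map_add, hp, hq]
    | mul_X p v hp => rw [map_mul, map_mul, map_mul, hp, aeval_X, h0, eval_X]
  have hc : m.comap (aeval F : R →ₐ[ℂ] MvPolynomial σ ℂ).toRingHom = mx x :=
    Ideal.ext fun r => by rw [Ideal.mem_comap, RingHom.mem_ker, mem_mx, ← hev]; rfl
  have h1 := Jac.hq_le_fibre (aeval F : R →ₐ[ℂ] MvPolynomial σ ℂ).toRingHom (J := X.I) (J' := ⊥)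
    (m' := m) (fun r hr => Ideal.mem_comap.2 (Ideal.mem_bot.2 (hF r hr))) bot_le
  rw [hc, Jac.hq_bot] at h1
  set J := ⊥ ⊔ (mx x).map (aeval F : R →ₐ[ℂ] MvPolynomial σ ℂ).toRingHom with hJ
  have hJm : J ≤ m := sup_le bot_le (by rw [Ideal.map_le_iff_le_comap, hc])
  have hX : ∀ p : MvPolynomial σ ℂ, p - C (eval 0 p) ∈ J ⊔ m ^ 2 := fun p => by
    induction p using MvPolynomial.induction_on with
    | C c => simp
    | add p q hp hq =>
      convert add_mem hp hq using 1
      rw [map_add, map_add]; ring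
    | mul_X p i _ =>
      obtain ⟨r, hr, h2⟩ := hd i
      rw [map_mul, eval_X, Pi.zero_apply, mul_zero, map_zero, sub_zero]
      refine Ideal.mul_mem_left _ _ ?_
      have h3 : aeval F r ∈ J := Ideal.mem_sup_right (Ideal.mem_map_of_mem _ (mem_mx.2 hr))
      have := sub_mem (Ideal.mem_sup_left h3 : _ ∈ J ⊔ m ^ 2) (Ideal.mem_sup_right h2)
      rwa [sub_sub_cancel] at this
  have h2 := (Jac.hq_le_of_gen hJm (n := 0) Fin.elim0 (fun i => i.elim0) (fun p hp => by
    have := hX p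
    rw [RingHom.mem_ker.1 hp, map_zero, sub_zero] at this
    rw [sup_assoc]
    exact Ideal.mem_sup_right this)).1
  obtain ⟨s, h3, -, h4⟩ := Jac.height_eq_trdeg ℂ (MvPolynomial σ ℂ)
  rw [MvPolynomial.trdeg_of_isDomain] at h3
  have h5 : Fintype.card σ = s := by simpa using h3
  rw [h4 m hmax, ← h5] at h1
  exact h1.trans (by rw [le_antisymm h2 zero_le, Nat.cast_zero, add_zero]; exact le_rfl)
theorem Spc.full_sm {B : Finset ℕ} {V : Finset Var} (h : ∀ v ∈ V, v.1 ∈ B) :
    (Spc.full B V).Sm V.card := by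
  have hle : Jac.varI V ≤ (Spc.full B V).I := Jac.varI_le fun v hv y hy => by
    rw [eval_X]; exact by_contra fun h0 => hv (hy.2 v h0).1
  have hx0 : ∀ x ∈ (Spc.full B V).pts, ∀ v ∉ V, x v = 0 := fun x hx v hv =>
    by_contra fun h0 => hv (hx.2 v h0).1
  refine Jac.sm_of_le (fun x hx => ?_) fun x hx => ?_
  · have := (Jac.finJ_varI V).finite_tan x
    rw [← Jac.finrank_tan_varI (hx0 x hx)]
    exact Submodule.finrank_mono (TanI_anti hle x)
  · rw [Jac.ldim_eq_hq (Jac.finJ_varI V) hx hle (g := 1) (by simp) fun y hy _ hJ =>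
      ⟨hy, fun v hv => by
        have h1 : v ∈ V := by_contra fun h2 => hv (Jac.varI_le_mx.1 hJ v h2)
        exact ⟨h1, h v h1⟩⟩]
    exact Jac.card_le_hq_varI (hx0 x hx)
lemma Spc.tan_fib (h : Disjoint X.B Y.B) {z : Pt} (hz : z ∈ (X.fib Y).pts) {ξ : Pt} :
    ξ ∈ (X.fib Y).Tan z ↔ restr X.B ξ ∈ X.Tan (restr X.B z) ∧ restr Y.B ξ ∈ Y.Tan (restr Y.B z) ∧
      ∀ v, ξ v ≠ 0 → v.1 ∈ X.B ∪ Y.B := by
  constructor
  · intro hξ
    refine ⟨fun r hr => ?_, fun r hr => ?_, fun v hv => by_contra fun hn => hv ?_⟩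
    · rw [← Jac.dAt_kill]; exact hξ _ ((Spc.fib_fst X Y).kill_mem hr)
    · rw [← Jac.dAt_kill]; exact hξ _ ((Spc.fib_snd X Y).kill_mem hr)
    · have := hξ (MvPolynomial.X v) fun w hw => by
        rw [eval_X]; exact by_contra fun h0 => hn (hw.2.2 v h0)
      rwa [dAt_X] at this
  · rintro ⟨h1, h2, h3⟩ r hr
    have hd := Finset.disjoint_left.1 h
    have hξ : ξ = restr X.B ξ + restr Y.B ξ := funext fun v => by
      by_cases a : v.1 ∈ X.B
      · simp [restr, a, hd a]
      by_cases b : v.1 ∈ Y.B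
      · simp [restr, a, b]
      · have : ξ v = 0 := by_contra fun h0 => by simpa [a, b] using h3 v h0
        simp [restr, a, b, this]
    have hX : Jac.frz X.B z r ∈ X.I := fun x hx => by
      rw [Jac.eval_frz]
      refine hr _ ⟨?_, ?_, fun v hv => ?_⟩
      · convert hx using 1
        rw [← X.restr_eq hx]
        funext v; by_cases a : v.1 ∈ X.B <;> simp [restr, a]
      · convert hz.2.1 using 1
        funext v
        by_cases b : v.1 ∈ Y.B
        · simp [restr, b, Finset.disjoint_right.1 h b]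
        · simp [restr, b]
      · by_cases a : v.1 ∈ X.B
        · exact Finset.mem_union_left _ a
        · exact hz.2.2 v (by simpa [a] using hv)
    have hY : Jac.frz Y.B z r ∈ Y.I := fun y hy => by
      rw [Jac.eval_frz]
      refine hr _ ⟨?_, ?_, fun v hv => ?_⟩
      · convert hz.1 using 1
        funext v
        by_cases a : v.1 ∈ X.B
        · simp [restr, a, hd a]
        · simp [restr, a]
      · convert hy using 1
        rw [← Y.restr_eq hy]
        funext v; by_cases b : v.1 ∈ Y.B <;> simp [restr, b]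
      · by_cases b : v.1 ∈ Y.B
        · exact Finset.mem_union_right _ b
        · exact hz.2.2 v (by simpa [b] using hv)
    have h4 := h1 _ hX
    have h5 := h2 _ hY
    rw [Jac.dAt_frz, restr_restr subset_rfl] at h4 h5
    rw [hξ, dAt_dir_add, h4, h5, add_zero]
theorem Spc.Sm.fib {m n : ℕ} (hX : X.Sm m) (hY : Y.Sm n) (h : Disjoint X.B Y.B) :
    (X.fib Y).Sm (m + n) := by
  refine Jac.sm_of_le (fun z hz => ?_) fun z hz => ?_
  · let φ : (X.fib Y).Tan z →ₗ[ℂ] X.Tan (restr X.B z) × Y.Tan (restr Y.B z) :=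
      LinearMap.prod
        ((Jac.restrL X.B).restrict fun ξ hξ => ((Spc.tan_fib h hz).1 hξ).1)
        ((Jac.restrL Y.B).restrict fun ξ hξ => ((Spc.tan_fib h hz).1 hξ).2.1)
    have hφ : Function.Injective φ := by
      rw [injective_iff_map_eq_zero]
      rintro ⟨ξ, hξ⟩ h0
      have h1 : restr X.B ξ = 0 := congrArg (fun t => (t.1 : Pt)) h0
      have h2 : restr Y.B ξ = 0 := congrArg (fun t => (t.2 : Pt)) h0
      refine Subtype.ext (funext fun v => by_contra fun hv => ?_)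
      rcases Finset.mem_union.1 (((Spc.tan_fib h hz).1 hξ).2.2 v hv) with a | a
      · exact hv (by simpa [restr, a] using congrFun h1 v)
      · exact hv (by simpa [restr, a] using congrFun h2 v)
    have := LinearMap.finrank_le_finrank_of_injective hφ
    rwa [Module.finrank_prod, (hX _ hz.1).1, (hY _ hz.2.1).1] at this
  · obtain ⟨V, hV, hV0⟩ := X.fin
    obtain ⟨V', hV', hV0'⟩ := Y.fin
    have hle : Jac.varI V ≤ X.I := Jac.varI_le fun v hv y hy => by rw [eval_X]; exact hV0 y hy v hv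
    have hle' : Jac.varI V' ≤ Y.I :=
      Jac.varI_le fun v hv y hy => by rw [eval_X]; exact hV0' y hy v hv
    obtain ⟨c, s, -, h1, -, -, h2, r, hr, h3⟩ :=
      Jac.smAt_local_eqs (Jac.finJ_varI V) hle hz.1 (hX.smAt hz.1)
    obtain ⟨c', s', -, h1', -, -, h2', r', hr', h3'⟩ :=
      Jac.smAt_local_eqs (Jac.finJ_varI V') hle' hz.2.1 (hY.smAt hz.2.1)
    rw [Jac.finrank_tan_varI (hV0 _ hz.1), (hX _ hz.1).1] at h2
    rw [Jac.finrank_tan_varI (hV0' _ hz.2.1), (hY _ hz.2.1).1] at h2'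
    have hdj : Disjoint V V' := Finset.disjoint_left.2 fun v a b =>
      Finset.disjoint_left.1 h (hV v a) (hV' v b)
    have h0 : ∀ w ∈ (X.fib Y).pts, ∀ v ∉ V ∪ V', w v = 0 := fun w hw v hv => by
      rw [Finset.notMem_union] at hv
      by_contra hn
      rcases Finset.mem_union.1 (hw.2.2 v hn) with a | a
      · exact hn (by simpa [restr, a] using hV0 _ hw.1 v hv.1)
      · exact hn (by simpa [restr, a] using hV0' _ hw.2.1 v hv.2)
    let t : Fin (c + c') → R := Fin.append (fun i => kill X.B (s i)) fun i => kill Y.B (s' i)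
    have ht : ∀ i, t i ∈ (X.fib Y).I := fun i => by
      refine Fin.addCases (fun i => ?_) (fun i => ?_) i
      · simp only [t, Fin.append_left]; exact (Spc.fib_fst X Y).kill_mem (h1 i)
      · simp only [t, Fin.append_right]; exact (Spc.fib_snd X Y).kill_mem (h1' i)
    have hJ : Jac.varI (V ∪ V') ≤ (X.fib Y).I :=
      Jac.varI_le fun v hv w hw => by rw [eval_X]; exact h0 w hw v hv
    have := (Jac.finJ_varI (V ∪ V')).noeth
    have h4 := (Jac.card_le_hq_varI (h0 z hz)).trans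
      (Jac.hq_le_sup_add (Jac.varI_le_mx.2 (h0 z hz)) t fun i => Jac.I_le_mx hz (ht i))
    rw [← Jac.ldim_eq_hq ((Jac.finJ_varI _).mono le_sup_left) hz (Jac.sup_span_le hJ ht)
      (g := kill X.B r * kill Y.B r') (by
        rw [map_mul, eval_kill, eval_kill]; exact mul_ne_zero hr hr') fun w hw hg hw' => ?_] at h4
    · rw [Finset.card_union_of_disjoint hdj, ← h2, ← h2'] at h4
      refine (ENat.add_le_add_iff_right (ENat.natCast_ne_top (c + c'))).1 (le_trans ?_ h4)
      exact_mod_cast (by omega : m + n + (c + c') ≤ m + c + (n + c'))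
    · rw [map_mul, eval_kill, eval_kill] at hg
      have hw0 := Jac.varI_le_mx.1 (le_sup_left.trans hw')
      have hwt : ∀ i, eval w (t i) = 0 := fun i =>
        hw' (Ideal.mem_sup_right (Ideal.subset_span ⟨i, rfl⟩))
      refine ⟨Jac.mem_pts_of_le (Jac.rel_restr_of Finset.subset_union_left hw) fun a ha => ?_,
        Jac.mem_pts_of_le (Jac.rel_restr_of Finset.subset_union_right hw) fun a ha => ?_,
        fun v hv => ?_⟩
      · have h5 : Jac.varI V ⊔ Ideal.span (Set.range s) ≤ mx (restr X.B w) := by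
          refine Jac.sup_span_le (Jac.varI_le_mx.2 fun v hv => ?_) fun i => ?_
          · by_cases a : v.1 ∈ X.B
            · simpa [restr, a] using hw0 v (Finset.notMem_union.2
                ⟨hv, fun b => Finset.disjoint_left.1 h a (hV' v b)⟩)
            · simp [restr, a]
          · have := hwt (Fin.castAdd c' i)
            simp only [t, Fin.append_left] at this
            rwa [eval_kill] at this
        exact ((Jac.mx_isPrime _).mem_or_mem (h5 (h3 a ha))).resolve_left (left_ne_zero_of_mul hg)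
      · have h5 : Jac.varI V' ⊔ Ideal.span (Set.range s') ≤ mx (restr Y.B w) := by
          refine Jac.sup_span_le (Jac.varI_le_mx.2 fun v hv => ?_) fun i => ?_
          · by_cases a : v.1 ∈ Y.B
            · simpa [restr, a] using hw0 v (Finset.notMem_union.2
                ⟨fun b => Finset.disjoint_left.1 h (hV v b) a, hv⟩)
            · simp [restr, a]
          · have := hwt (Fin.natAdd c i)
            simp only [t, Fin.append_right] at this
            rwa [eval_kill] at this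
        exact ((Jac.mx_isPrime _).mem_or_mem (h5 (h3' a ha))).resolve_left
          (right_ne_zero_of_mul hg)
      · rcases Finset.mem_union.1 (by_contra fun hn => hv (hw0 v hn) : v ∈ V ∪ V') with a | a
        · exact Finset.mem_union_left _ (hV v a)
        · exact Finset.mem_union_right _ (hV' v a)
lemma Proj.tan (p : Proj Y X) {y ξ : Pt} (h : ξ ∈ Y.Tan y) : restr X.B ξ ∈ X.Tan (restr X.B y) :=
  fun r hr => by rw [← Jac.dAt_kill]; exact h _ (p.kill_mem hr)
/-- Hartogs: on a smooth space divisibility extends over codimension two -/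
theorem Spc.hartogs {n : ℕ} (hX : X.Sm n) (hZ : Z.Sub X) (hc : ∀ z ∈ Z.pts, Z.ldim z + 2 ≤ n)
    {x : Pt} (hx : x ∈ X.pts) {f g u : R} (hu : eval x u ≠ 0)
    (hg : ∀ r : R, eval x r ≠ 0 → r * g ∉ X.I)
    (h : ∀ y ∈ X.pts, y ∉ Z.pts → eval y u ≠ 0 → ∃ r a : R, eval y r ≠ 0 ∧ r * f - a * g ∈ X.I) :
    ∃ r a : R, eval x r ≠ 0 ∧ r * f - a * g ∈ X.I := by
  by_contra hf
  have := (Spc.isMaximal_mx hx).isPrime
  have := (hX.smAt hx).regular hx
  obtain ⟨p, hp, hpm, h1, h2⟩ := Jac.exists_prime_of_not_dvd (Jac.I_le_mx hx) (hX x hx).2 hg hf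
  have hXp : X.I ≤ p := fun r hr => by
    have h3 : r * f - 0 * g ∈ X.I := by
      rw [zero_mul, sub_zero]; exact Ideal.mul_mem_right _ _ hr
    exact h1 r 0 h3
  have hZp : ∀ y, Rel Z.B y → eval y u ≠ 0 → p ≤ mx y → y ∈ Z.pts := fun y hy hyu hpy => by
    by_contra hn
    obtain ⟨r, a, hr, h3⟩ := h y (Jac.mem_pts_of_le (hZ.1 ▸ hy) (hXp.trans hpy)) hn hyu
    exact hr (hpy (h1 r a h3))
  have hxZ : x ∈ Z.pts := hZp x (hZ.1 ▸ X.rel x hx) hu hpm
  have h3 : Z.I ≤ p := fun a ha => by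
    obtain ⟨ρ, hρ, k, hk⟩ := Jac.I_le_rad ((Jac.finJ_I X).mono hXp) (Z.rel x hxZ) hu hZp ha
    exact hp.mem_of_pow_mem k ((hp.mem_or_mem hk).resolve_left fun h' => hρ (hpm h'))
  have h4 : Jac.hq p (mx x) ≤ Z.ldim x := Jac.hq_anti hpm h3
  have h5 := (hc x hxZ).trans (h2.trans (add_le_add_left h4 1))
  obtain ⟨k, hk⟩ := ENat.ne_top_iff_exists.1 (Jac.ldim_ne_top hxZ)
  rw [← hk] at h5
  have h6 : k + 2 ≤ k + 1 := by exact_mod_cast h5
  omega

end Crest.Agent.N265
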